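import Vale.Agent.P139Z.Top
import Vale.Agent.P139Z.ThmA
import Vale.Agent.P139Z.Hk

open Set MeasureTheory ProbabilityTheory
open scoped ENNReal

namespace Vale.Agent.Results.P139.Blowup

open Vale.Agent.P139.A

/-- Disproof of almost sure global existence.
1. In dimension `d = 12` there are an odd `p ≥ 3` with `s_cr > 1` and numbers `α₁`, `T₀` such that
   for every `α > α₁` and all independent standard complex Gaussians: almost surely the datum lies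
   in `H^k` and has a positive lifespan for `d/2 < k < α - d/2`, and with positive probability the
   `H^k` lifespan is at most `T₀` for every `k > d/2`, the `H^k` norm being unbounded.
2. Such Gaussian families exist.
3. The statement of the question is false. -/
theorem result :
    (∃ p : ℕ, Odd p ∧ 3 ≤ p ∧ 1 < (12 : ℝ) / 2 - 2 / ((p : ℝ) - 1) ∧ ∃ α₁ T₀ : ℝ,
      ∀ α : ℝ, α₁ < α → ∀ (Ω : Type) [MeasurableSpace Ω] (P : Measure Ω) [IsProbabilityMeasure P]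
        (g : (Fin 12 → ℤ) → Ω → ℂ), (∀ n, Measurable (g n)) → iIndepFun g P →
        (∀ n, P.map (g n) = stdComplexGaussian) →
        (∀ k : ℕ, 12 < 2 * k → (k : ℝ) < α - (12 : ℝ) / 2 → ∀ᵐ ω ∂P,
          MemSobolev k (datum g α ω) ∧ 0 < lifespan 12 p k (datum g α ω)) ∧
        ∃ E : Set Ω, MeasurableSet E ∧ 0 < P E ∧ ∀ ω ∈ E, ∀ k : ℕ, 12 < 2 * k →
          lifespan 12 p k (datum g α ω) ≤ ENNReal.ofReal T₀ ∧
          (MemSobolev k (datum g α ω) → ∀ M : ℝ, ∃ (T : ℝ) (u : ℝ → (Fin 12 → ℤ) → ℂ),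
            0 ≤ T ∧ IsSolution 12 p k T u ∧ u 0 = datum g α ω ∧ M ≤ sobolevSq k (u T))) ∧
    (∀ d : ℕ, ∃ (Ω : Type) (_ : MeasurableSpace Ω) (P : Measure Ω) (_ : IsProbabilityMeasure P)
      (g : (Fin d → ℤ) → Ω → ℂ), (∀ n, Measurable (g n)) ∧ iIndepFun g P ∧
        ∀ n, P.map (g n) = stdComplexGaussian) ∧
    ¬ ∀ d p : ℕ, 1 ≤ d → Odd p → 3 ≤ p → 1 < (d : ℝ) / 2 - 2 / ((p : ℝ) - 1) →
      ∃ α₀ : ℝ, ∀ α : ℝ, α₀ < α → ∃ k : ℕ, d < 2 * k ∧ (k : ℝ) < α - (d : ℝ) / 2 ∧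
        ∃ (Ω : Type) (_ : MeasurableSpace Ω) (P : Measure Ω) (_ : IsProbabilityMeasure P)
          (g : (Fin d → ℤ) → Ω → ℂ), (∀ n, Measurable (g n)) ∧ iIndepFun g P ∧
          (∀ n, P.map (g n) = stdComplexGaussian) ∧
          ∀ᵐ ω ∂P, lifespan d p k (datum g α ω) = ⊤ := by
  obtain ⟨m, β, G, hm, hG, hs⟩ := Vale.Agent.P139Z.exists_modeStable
  obtain ⟨α₁, T₀, H⟩ := Vale.Agent.P139Z.blowup_of_modeStable hm hG hs
  have hodd : Odd (2 * m + 1) := ⟨m, rfl⟩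
  have h3 : 3 ≤ 2 * m + 1 := by omega
  have hcr : 1 < (12 : ℝ) / 2 - 2 / (((2 * m + 1 : ℕ) : ℝ) - 1) := by
    have h1 : (1 : ℝ) ≤ m := by exact_mod_cast hm
    have h2 : (2 : ℝ) / (((2 * m + 1 : ℕ) : ℝ) - 1) ≤ 1 := by
      rw [div_le_one (by push_cast; linarith)]
      push_cast
      linarith
    linarith
  refine ⟨⟨2 * m + 1, hodd, h3, hcr, α₁, T₀, fun α hα Ω _ P _ g hg hind hlaw =>
    ⟨fun k hk hk' => ?_, ?_⟩⟩, Vale.Agent.P139Z.exists_gaussian_family, fun hQ => ?_⟩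
  · filter_upwards [Vale.Agent.P139Z.ae_memSobolev P g hg hlaw (k := k) (α := α)
      (by exact_mod_cast hk')] with ω hω
    exact ⟨hω, Vale.Agent.P139Z.lifespan_pos_of_mem hk hω⟩
  · obtain ⟨E, hE, hP, hω⟩ := H α hα Ω P g hg hind hlaw
    exact ⟨E, hE, hP, fun ω h k hk => ⟨hω ω h k hk, fun hmem M =>
      Vale.Agent.P139Z.blowup_alternative hk hmem
        (ne_top_of_le_ne_top ENNReal.ofReal_ne_top (hω ω h k hk)) M⟩⟩
  · obtain ⟨α₀, h⟩ := hQ 12 (2 * m + 1) (by norm_num) hodd h3 (by exact_mod_cast hcr)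
    obtain ⟨k, hk, -, Ω, _, P, _, g, hg, hind, hlaw, hae⟩ :=
      h (max α₀ α₁ + 1) (lt_of_le_of_lt (le_max_left _ _) (lt_add_one _))
    obtain ⟨E, -, hE, hω⟩ :=
      H (max α₀ α₁ + 1) (lt_of_le_of_lt (le_max_right _ _) (lt_add_one _)) Ω P g hg hind hlaw
    refine hE.ne' (measure_mono_null (fun ω h => ?_) (ae_iff.1 hae))
    exact fun h' => ENNReal.ofReal_ne_top (top_le_iff.1 (h' ▸ hω ω h k hk))

end Vale.Agent.Results.P139.Blowup
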